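import Mathlib.Analysis.VonNeumannAlgebra.Basic
import Mathlib.Analysis.InnerProductSpace.Adjoint

namespace Vale.Agent.P096.Fin

/-- `M` is a semifinite factor: the centre of `M` consists of the scalars, and `M` has a nonzero
finite projection `e`, that is, a projection `e ≠ 0` of `M` which is not equivalent in `M` to a
proper subprojection (`v ∈ M`, `v* v = e` and `v v* ≤ e` imply `v v* = e`). -/
def SemifiniteFactor {H : Type*} [NormedAddCommGroup H] [InnerProductSpace ℂ H] [CompleteSpace H]
    (M : VonNeumannAlgebra H) : Prop :=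
  (∀ x ∈ M, (∀ y ∈ M, x * y = y * x) → ∃ c : ℂ, x = c • (1 : H →L[ℂ] H)) ∧
  ∃ e ∈ M, e ≠ 0 ∧ e * e = e ∧ star e = e ∧
    ∀ v ∈ M, star v * v = e → e * v = v → v * star v = e

end Vale.Agent.P096.Fin
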